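import Vale.Agent.P146.H767.SaM
import Vale.Agent.P146.H432.XReg
import Vale.Agent.P146.H432.XPoint

/-!
# P146: the late number of the gain with the late piece frozen

At a point `x` with `n^(1-d) s x³ ≤ D(x, s) ≤ x G(x, s)` and with `ε = (x - x')/(n^(c1) x)`:
`4 ε D(2x, s+τ) + ε D((x-x')/ε, l) ≤ n^(-c) (x - x') G(x, s)`,
as soon as `D(n^(c1) x, l) ≤ n^(1+α) l (n^(c1) x)³` and `l ≤ n^(-c3) s` (`late3`), and without any
hypothesis on the large exponent when `l ≤ n^(-c3) x² s` (`late3_triv`).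
-/

open MeasureTheory ProbabilityTheory Filter Topology

namespace Vale.Agent.P146.H391

open Vale.Agent.P157.Lv Vale.Agent.P146.H425 Vale.Agent.P146.R1
  Vale.Agent.P146.H332 Vale.Agent.P146.H325
open Vale.Agent.P146.H767
open Vale.Agent.P146.H432 (Dn Gn Kn Lg AntiN ev_small ev_big Dn_nonneg Rn_le)
open Vale.Agent.P146.H946 (Dz)

set_option linter.unusedSectionVars false

/-- **The trivial bound.** -/
theorem Dn_triv {n : ℕ} (hn : 0 < n) (β : ℝ) {x s : ℝ} (hx : 0 < x) (hs : 0 ≤ s) (hs1 : s ≤ 1) :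
    Dn n β x s ≤ β ^ 2 / 4 * n * x * s := by
  have h := c11_lz (β / √n) (SkS (n := n))
  have h1 := DD_int_s (D := Dz (β / √n)) h hx le_rfl hs hs1
  have h2 : DD x 0 (lz (β / √n) (SkS (n := n))) = 0 := by
    rw [DD_eq]
    simp [W_zero hx]
  rw [h2, sub_zero] at h1
  have hcont : ContinuousOn (fun σ => x / 2 * Q0 x σ (lz (β / √n) (SkS (n := n)))
      (Dz (β / √n))) (Set.Icc 0 s) :=
    (Q0_contOn h hx le_rfl hs1).const_smul (x / 2)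
  have h3 : ∫ σ in (0 : ℝ)..s, x / 2 * Q0 x σ (lz (β / √n) (SkS (n := n))) (Dz (β / √n)) ≤
      ∫ _ in (0 : ℝ)..s, x / 2 * (β ^ 2 * n / 2) :=
    intervalIntegral.integral_mono_on hs (hcont.intervalIntegrable_of_Icc hs)
      intervalIntegrable_const fun σ hσ => by
        refine mul_le_mul_of_nonneg_left ?_ (by positivity)
        exact (Q0_le_Qin (t := 1) h hx (by linarith [hσ.1]) le_rfl).trans
          (Rn_le hn β hx (by linarith [hσ.1]) le_rfl)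
  rw [intervalIntegral.integral_const, smul_eq_mul, sub_zero] at h3
  have e1 : Dn n β x s = DD x s (lz (β / √n) (SkS (n := n))) := rfl
  rw [e1, h1]
  refine h3.trans (le_of_eq ?_)
  ring

/-- **The doubled exponent.** -/
theorem two_x {β a0 a e d w c1 c : ℝ} (hU : H695.UpM β a0) (haa : a0 < a) (he : 0 ≤ e)
    (hc : d + w + c < c1) :
    ∀ᶠ n : ℕ in atTop, ∀ x s τ : ℝ, (n : ℝ) ^ (-(1 / 6) + e) ≤ x → x ≤ (n : ℝ) ^ (-a) →
      (n : ℝ) ^ (-w) * x ^ 2 ≤ s → 0 ≤ τ → s + τ ≤ 1 →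
      (n : ℝ) ^ (1 - d) * s * x ^ 3 ≤ Dn n β x s →
      4 * Dn n β (2 * x) (s + τ) ≤ 1 / 2 * (n : ℝ) ^ (c1 - c) * Dn n β x s := by
  obtain ⟨ε, hεd⟩ : ∃ ε, ε = (c1 - c - d - w) / 2 := ⟨_, rfl⟩
  have hε : 0 < ε := by rw [hεd]; linarith
  filter_upwards [hU ε hε, ev_big (C := 2) (sub_pos.2 haa), ev_big (C := 256) hε,
    eventually_ge_atTop 1] with n h1 h2 h3 h7 x s τ hxl hxu hs hτ hsτ hD
  have hn1 : (1 : ℝ) ≤ n := by exact_mod_cast h7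
  have hn0 : (0 : ℝ) < n := by linarith
  have hx0 : 0 < x := (Real.rpow_pos_of_pos hn0 _).trans_le hxl
  have hw0 := Real.rpow_pos_of_pos hn0 (-w)
  have hs0 : 0 < s := by
    have : 0 < (n : ℝ) ^ (-w) * x ^ 2 := by positivity
    linarith
  have hx2 : (n : ℝ) ^ (-(1 / 6) : ℝ) ≤ 2 * x := by
    have : (n : ℝ) ^ (-(1 / 6) : ℝ) ≤ (n : ℝ) ^ (-(1 / 6) + e) :=
      Real.rpow_le_rpow_of_exponent_le hn1 (by linarith)
    linarith
  have hx3 : 2 * x ≤ (n : ℝ) ^ (-a0) := by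
    have e1 : (n : ℝ) ^ (-a0) = (n : ℝ) ^ (a - a0) * (n : ℝ) ^ (-a) := by
      rw [← Real.rpow_add hn0]
      congr 1
      ring
    rw [e1]
    exact mul_le_mul h2.le hxu hx0.le (by linarith)
  have k2 : Lg n β (2 * x) ≤ (n : ℝ) ^ (1 + ε) * (2 * x) ^ 6 := h1 (2 * x) hx2 hx3
  have k3 := DD_le_W (c11_lz (β / √n) (SkS (n := n))) (x := 2 * x) (by positivity)
    (by linarith : 0 ≤ s + τ) hsτ
  rw [Lg_W n β (by positivity : 0 < 2 * x)] at k2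
  have k4 := (mul_le_mul_of_nonneg_left k3 (by positivity : 0 ≤ 2 * x)).trans k2
  have e1 : (n : ℝ) ^ (1 + ε) * (2 * x) ^ 6 =
      2 * x * (32 * ((n : ℝ) ^ (1 + ε) * x ^ 5)) := by ring
  rw [e1] at k4
  have k5 : Dn n β (2 * x) (s + τ) ≤ 32 * ((n : ℝ) ^ (1 + ε) * x ^ 5) :=
    le_of_mul_le_mul_left k4 (by positivity)
  -- the lower bound of `D(x, s)`
  have k6 : (n : ℝ) ^ (1 - d - w) * x ^ 5 ≤ Dn n β x s := by
    refine le_trans ?_ hD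
    have e2 : (n : ℝ) ^ (1 - d - w) * x ^ 5 =
        (n : ℝ) ^ (1 - d) * ((n : ℝ) ^ (-w) * x ^ 2) * x ^ 3 := by
      have : (n : ℝ) ^ (1 - d - w) = (n : ℝ) ^ (1 - d) * (n : ℝ) ^ (-w) := by
        rw [← Real.rpow_add hn0]
        congr 1
      rw [this]
      ring
    rw [e2]
    have := Real.rpow_pos_of_pos hn0 (1 - d)
    gcongr
  have k7 : (n : ℝ) ^ (c1 - c) * ((n : ℝ) ^ (1 - d - w) * x ^ 5) =
      (n : ℝ) ^ ε * ((n : ℝ) ^ (1 + ε) * x ^ 5) := by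
    rw [← mul_assoc, ← mul_assoc, ← Real.rpow_add hn0, ← Real.rpow_add hn0]
    congr 2
    rw [hεd]
    ring
  have k8 : (n : ℝ) ^ (c1 - c) * ((n : ℝ) ^ (1 - d - w) * x ^ 5) ≤
      (n : ℝ) ^ (c1 - c) * Dn n β x s :=
    mul_le_mul_of_nonneg_left k6 (Real.rpow_pos_of_pos hn0 _).le
  have k9 : 256 * ((n : ℝ) ^ (1 + ε) * x ^ 5) ≤ (n : ℝ) ^ ε * ((n : ℝ) ^ (1 + ε) * x ^ 5) := by
    refine mul_le_mul_of_nonneg_right h3.le ?_
    have := Real.rpow_pos_of_pos hn0 (1 + ε)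
    positivity
  rw [k7] at k8
  linarith

/-- the arithmetic of the late number -/
theorem late_alg {n : ℕ} {x xs c1 c D2 Dm D G : ℝ} (hn : (0 : ℝ) < n) (hc1 : 2 ≤ (n : ℝ) ^ c1)
    (hxs : 0 < xs) (hlt : xs < x) (h2 : 4 * D2 ≤ 1 / 2 * (n : ℝ) ^ (c1 - c) * D)
    (hm : Dm ≤ 1 / 2 * (n : ℝ) ^ (c1 - c) * D) (hD : D ≤ x * G) {ε : ℝ}
    (hε : ε = (x - xs) / ((n : ℝ) ^ c1 * x)) :
    0 < ε ∧ ε ≤ 1 / 2 ∧ (x - xs) / ε = (n : ℝ) ^ c1 * x ∧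
      4 * ε * D2 + ε * Dm ≤ (n : ℝ) ^ (-c) * ((x - xs) * G) := by
  have hx : 0 < x := hxs.trans hlt
  have hc0 : 0 < (n : ℝ) ^ c1 := by linarith
  have hd : 0 < x - xs := by linarith
  have hε0 : 0 < ε := by rw [hε]; positivity
  refine ⟨hε0, ?_, ?_, ?_⟩
  · rw [hε, div_le_iff₀ (by positivity)]
    nlinarith
  · rw [hε]
    field_simp
  · have e1 : (n : ℝ) ^ (c1 - c) = (n : ℝ) ^ c1 * (n : ℝ) ^ (-c) := by
      rw [← Real.rpow_add hn]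
      congr 1
    have h3 : 4 * D2 + Dm ≤ (n : ℝ) ^ (c1 - c) * (x * G) := by
      have := mul_le_mul_of_nonneg_left hD (Real.rpow_pos_of_pos hn (c1 - c)).le
      linarith
    have h4 := mul_le_mul_of_nonneg_left h3 hε0.le
    have e2 : ε * ((n : ℝ) ^ (c1 - c) * (x * G)) = (n : ℝ) ^ (-c) * ((x - xs) * G) := by
      rw [hε, e1]
      field_simp
    rw [e2] at h4
    linarith

/-- **The late number from the upper bound at the large exponent.** -/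
theorem late3 {β a0 a e d w α c1 c3 c : ℝ} (hU : H695.UpM β a0) (haa : a0 < a) (he : 0 ≤ e)
    (hd : 0 ≤ d) (hw : 0 ≤ w) (hc0 : 0 ≤ c) (hc : d + w + c < c1)
    (hc3 : α + d + 2 * c1 + c < c3) :
    ∀ᶠ n : ℕ in atTop, ∀ x xs s τ l ε : ℝ, (n : ℝ) ^ (-(1 / 6) + e) ≤ x →
      x ≤ (n : ℝ) ^ (-a) → (n : ℝ) ^ (-w) * x ^ 2 ≤ s → 0 ≤ τ → s + τ ≤ 1 → 0 < xs → xs < x →
      l ≤ (n : ℝ) ^ (-c3) * s → (n : ℝ) ^ (1 - d) * s * x ^ 3 ≤ Dn n β x s →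
      Dn n β x s ≤ x * Gn n β x s →
      Dn n β ((n : ℝ) ^ c1 * x) l ≤ (n : ℝ) ^ (1 + α) * l * ((n : ℝ) ^ c1 * x) ^ 3 →
      ε = (x - xs) / ((n : ℝ) ^ c1 * x) →
      0 < ε ∧ ε ≤ 1 / 2 ∧ (x - xs) / ε = (n : ℝ) ^ c1 * x ∧
        4 * ε * Dn n β (2 * x) (s + τ) + ε * Dn n β ((x - xs) / ε) l ≤
          (n : ℝ) ^ (-c) * ((x - xs) * Gn n β x s) := by
  filter_upwards [two_x (β := β) (e := e) hU haa he hc,
    ev_big (a := c3 - α - 2 * c1 - c - d) (C := 2) (by linarith),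
    ev_big (a := c1) (C := 2) (by linarith), eventually_ge_atTop 1]
    with n h1 h2 h3 h7 x xs s τ l ε hxl hxu hs hτ hsτ hxs0 hxs hl hD hG hub hε
  have hn1 : (1 : ℝ) ≤ n := by exact_mod_cast h7
  have hn0 : (0 : ℝ) < n := by linarith
  have hx0 : 0 < x := (Real.rpow_pos_of_pos hn0 _).trans_le hxl
  have hs0 : 0 < s := by
    have : 0 < (n : ℝ) ^ (-w) * x ^ 2 := by
      have := Real.rpow_pos_of_pos hn0 (-w)
      positivity
    linarith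
  have k1 := h1 x s τ hxl hxu hs hτ hsτ hD
  -- the large exponent
  have k2 : Dn n β ((n : ℝ) ^ c1 * x) l ≤ 1 / 2 * (n : ℝ) ^ (c1 - c) * Dn n β x s := by
    have g1 : (n : ℝ) ^ (1 + α) * l * ((n : ℝ) ^ c1 * x) ^ 3 ≤
        (n : ℝ) ^ (1 + α) * ((n : ℝ) ^ (-c3) * s) * ((n : ℝ) ^ c1 * x) ^ 3 := by
      have := Real.rpow_pos_of_pos hn0 (1 + α)
      have := Real.rpow_pos_of_pos hn0 c1
      gcongr
    have g2 : (n : ℝ) ^ (1 + α) * ((n : ℝ) ^ (-c3) * s) * ((n : ℝ) ^ c1 * x) ^ 3 =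
        (n : ℝ) ^ (1 + α - c3 + 3 * c1) * (s * x ^ 3) := by
      have e3 : (n : ℝ) ^ (1 + α - c3 + 3 * c1) =
          (n : ℝ) ^ (1 + α) * (n : ℝ) ^ (-c3) * ((n : ℝ) ^ c1) ^ 3 := by
        rw [← Real.rpow_natCast, ← Real.rpow_mul hn0.le, ← Real.rpow_add hn0,
          ← Real.rpow_add hn0]
        congr 1
        push_cast
        ring
      rw [e3]
      ring
    have g3 : 2 * ((n : ℝ) ^ (1 + α - c3 + 3 * c1) * (s * x ^ 3)) ≤
        (n : ℝ) ^ (c3 - α - 2 * c1 - c - d) *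
          ((n : ℝ) ^ (1 + α - c3 + 3 * c1) * (s * x ^ 3)) := by
      refine mul_le_mul_of_nonneg_right h2.le ?_
      have := Real.rpow_pos_of_pos hn0 (1 + α - c3 + 3 * c1)
      positivity
    have g4 : (n : ℝ) ^ (c3 - α - 2 * c1 - c - d) *
          ((n : ℝ) ^ (1 + α - c3 + 3 * c1) * (s * x ^ 3)) =
        (n : ℝ) ^ (c1 - c) * ((n : ℝ) ^ (1 - d) * s * x ^ 3) := by
      rw [← mul_assoc, ← Real.rpow_add hn0]
      have e4 : c3 - α - 2 * c1 - c - d + (1 + α - c3 + 3 * c1) = (c1 - c) + (1 - d) := by ring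
      rw [e4, Real.rpow_add hn0]
      ring
    have g5 := mul_le_mul_of_nonneg_left hD (Real.rpow_pos_of_pos hn0 (c1 - c)).le
    rw [g2] at g1
    rw [g4] at g3
    linarith
  obtain ⟨r1, r2, r3, r4⟩ := late_alg (D2 := Dn n β (2 * x) (s + τ)) (c1 := c1) (c := c)
    (Dm := Dn n β ((n : ℝ) ^ c1 * x) l) hn0 h3.le hxs0 hxs k1 k2 hG hε
  refine ⟨r1, r2, r3, ?_⟩
  rw [r3]
  exact r4

/-- **The late number from the trivial bound.** -/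
theorem late3_triv {β a0 a e d w c1 c3 c : ℝ} (hU : H695.UpM β a0) (haa : a0 < a) (he : 0 ≤ e)
    (hd : 0 ≤ d) (hw : 0 ≤ w) (hc0 : 0 ≤ c) (hc : d + w + c < c1) (hc3 : d + c < c3) :
    ∀ᶠ n : ℕ in atTop, ∀ x xs s τ l ε : ℝ, (n : ℝ) ^ (-(1 / 6) + e) ≤ x →
      x ≤ (n : ℝ) ^ (-a) → (n : ℝ) ^ (-w) * x ^ 2 ≤ s → 0 ≤ τ → s + τ ≤ 1 → 0 < xs → xs < x →
      0 ≤ l → l ≤ 1 → l ≤ (n : ℝ) ^ (-c3) * x ^ 2 * s →
      (n : ℝ) ^ (1 - d) * s * x ^ 3 ≤ Dn n β x s → Dn n β x s ≤ x * Gn n β x s →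
      ε = (x - xs) / ((n : ℝ) ^ c1 * x) →
      0 < ε ∧ ε ≤ 1 / 2 ∧ (x - xs) / ε = (n : ℝ) ^ c1 * x ∧
        4 * ε * Dn n β (2 * x) (s + τ) + ε * Dn n β ((x - xs) / ε) l ≤
          (n : ℝ) ^ (-c) * ((x - xs) * Gn n β x s) := by
  filter_upwards [two_x (β := β) (e := e) hU haa he hc,
    ev_big (a := c3 - c - d) (C := β ^ 2 / 2) (by linarith),
    ev_big (a := c1) (C := 2) (by linarith), eventually_ge_atTop 1]
    with n h1 h2 h3 h7 x xs s τ l ε hxl hxu hs hτ hsτ hxs0 hxs hl0 hl1 hl hD hG hε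
  have hn1 : (1 : ℝ) ≤ n := by exact_mod_cast h7
  have hn0 : (0 : ℝ) < n := by linarith
  have hx0 : 0 < x := (Real.rpow_pos_of_pos hn0 _).trans_le hxl
  have hs0 : 0 < s := by
    have : 0 < (n : ℝ) ^ (-w) * x ^ 2 := by
      have := Real.rpow_pos_of_pos hn0 (-w)
      positivity
    linarith
  have k1 := h1 x s τ hxl hxu hs hτ hsτ hD
  have hc10 : 0 < (n : ℝ) ^ c1 := Real.rpow_pos_of_pos hn0 _
  have k2 : Dn n β ((n : ℝ) ^ c1 * x) l ≤ 1 / 2 * (n : ℝ) ^ (c1 - c) * Dn n β x s := by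
    have g0 := Dn_triv (n := n) h7 β (x := (n : ℝ) ^ c1 * x) (s := l) (by positivity) hl0 hl1
    have g1 : β ^ 2 / 4 * n * ((n : ℝ) ^ c1 * x) * l ≤
        β ^ 2 / 4 * n * ((n : ℝ) ^ c1 * x) * ((n : ℝ) ^ (-c3) * x ^ 2 * s) :=
      mul_le_mul_of_nonneg_left hl (by positivity)
    have g2 : β ^ 2 / 4 * n * ((n : ℝ) ^ c1 * x) * ((n : ℝ) ^ (-c3) * x ^ 2 * s) =
        β ^ 2 / 4 * ((n : ℝ) ^ (1 + c1 - c3) * (s * x ^ 3)) := by
      have e3 : (n : ℝ) ^ (1 + c1 - c3) = n * (n : ℝ) ^ c1 * (n : ℝ) ^ (-c3) := by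
        have e4 : (1 + c1 - c3 : ℝ) = 1 + c1 + -c3 := by ring
        rw [e4, Real.rpow_add hn0, Real.rpow_add hn0, Real.rpow_one]
      rw [e3]
      ring
    have g3 : β ^ 2 / 2 * ((n : ℝ) ^ (1 + c1 - c3) * (s * x ^ 3)) ≤
        (n : ℝ) ^ (c3 - c - d) * ((n : ℝ) ^ (1 + c1 - c3) * (s * x ^ 3)) := by
      refine mul_le_mul_of_nonneg_right h2.le ?_
      have := Real.rpow_pos_of_pos hn0 (1 + c1 - c3)
      positivity
    have g4 : (n : ℝ) ^ (c3 - c - d) * ((n : ℝ) ^ (1 + c1 - c3) * (s * x ^ 3)) =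
        (n : ℝ) ^ (c1 - c) * ((n : ℝ) ^ (1 - d) * s * x ^ 3) := by
      rw [← mul_assoc, ← Real.rpow_add hn0]
      have e4 : c3 - c - d + (1 + c1 - c3) = (c1 - c) + (1 - d) := by ring
      rw [e4, Real.rpow_add hn0]
      ring
    have g5 := mul_le_mul_of_nonneg_left hD (Real.rpow_pos_of_pos hn0 (c1 - c)).le
    rw [g2] at g1
    rw [g4] at g3
    linarith
  obtain ⟨r1, r2, r3, r4⟩ := late_alg (D2 := Dn n β (2 * x) (s + τ)) (c1 := c1) (c := c)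
    (Dm := Dn n β ((n : ℝ) ^ c1 * x) l) hn0 h3.le hxs0 hxs k1 k2 hG hε
  refine ⟨r1, r2, r3, ?_⟩
  rw [r3]
  exact r4

end Vale.Agent.P146.H391
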