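import Vale.Agent.P146.H425.Sn

/-!
Extraction of a variance from an exponential inequality: if `D ≥ h q`, `E D ≤ h E q + δ` and
`E exp (-W D) ≤ exp (-W h E q)` then `W² h² Var q ≤ 6 W δ`.
-/

open MeasureTheory ProbabilityTheory

namespace Vale.Agent.P146.H391

open Vale.Agent.P157 Vale.Agent.P157.Lv Vale.Agent.P157.Lv.Sy Vale.Agent.P146.H425
open Vale.Agent.P146.H784 (vr)

set_option linter.unusedSectionVars false
set_option linter.unusedVariables false

variable {ι X : Type} [Fintype ι] [Fintype X] [Nonempty X] {S : Sy ι X}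

lemma exp_half_le_two : Real.exp (1 / 2) ≤ 2 := by
  have h1 := Real.exp_one_lt_d9
  have h2 : Real.exp 1 = Real.exp (1 / 2) * Real.exp (1 / 2) := by
    rw [← Real.exp_add]; norm_num
  nlinarith [Real.exp_pos (1 / 2)]

/-- the pointwise bound -/
lemma exp_neg_ge {y0 y : ℝ} (h : |y0| ≤ 1 / 2) (hy : y0 ≤ y) :
    1 - y0 + y0 ^ 2 / 3 - 2 * (y - y0) ≤ Real.exp (-y) := by
  have h1 := exp_ge_quad (y := -y0) (by rwa [abs_neg])
  have h2 : Real.exp (-y) = Real.exp (-y0) * Real.exp (-(y - y0)) := by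
    rw [← Real.exp_add]; congr 1; ring
  have h3 := Real.add_one_le_exp (-(y - y0))
  have h4 : Real.exp (-y0) ≤ 2 := by
    refine le_trans (Real.exp_le_exp.2 ?_) exp_half_le_two
    have := (abs_le.1 h).1
    linarith
  have h5 : Real.exp (-y0) * (-(y - y0) + 1) ≤ Real.exp (-y) := by
    rw [h2]
    exact mul_le_mul_of_nonneg_left h3 (Real.exp_pos _).le
  have h6 : Real.exp (-y0) * (y - y0) ≤ 2 * (y - y0) :=
    mul_le_mul_of_nonneg_right h4 (by linarith)
  nlinarith [h1, h5, h6]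

/-- **Extraction of the variance.** -/
theorem ext (hS : S.Reg) {D q : (ι → ℝ) → ℝ} (hD : Lip D) (hq : EG q) {W h b κ δ : ℝ}
    (hW : 0 ≤ W) (hq0 : ∀ z, 0 ≤ q z) (hqb : ∀ z, q z ≤ b) (hκ : κ = S.Ex (fun z _ => q z))
    (hb : W * |h| * b ≤ 1 / 2) (hle : ∀ z, h * q z ≤ D z)
    (hE : S.Ex (fun z _ => D z) ≤ h * κ + δ)
    (ha : S.Ex (fun z _ => Real.exp (-(W * D z))) ≤ Real.exp (-(W * (h * κ)))) :
    W ^ 2 * h ^ 2 * vr S (fun z _ => q z) ≤ 6 * (W * δ) := by
  have n0 : Nh (X := X) fun z _ => q z := Nh.fst hq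
  have hκ0 : 0 ≤ κ := by
    rw [hκ, ← hS.Ex_const 0]
    exact hS.Ex_mono (fun _ => EG.const 0) n0 fun z _ => hq0 z
  have hκb : κ ≤ b := by
    rw [hκ, ← hS.Ex_const b]
    exact hS.Ex_mono n0 (fun _ => EG.const b) fun z _ => hqb z
  have hrh : 0 ≤ W * |h| := by positivity
  have hy : ∀ z, |W * h * (q z - κ)| ≤ 1 / 2 := by
    intro z
    rw [abs_mul, abs_mul, abs_of_nonneg hW]
    refine le_trans (mul_le_mul_of_nonneg_left ?_ hrh) hb
    rw [abs_le]
    constructor <;> linarith [hq0 z, hqb z]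
  have n1 : Nh (X := X) fun z _ => (q z - κ) := Nh.fst (hq.sub (EG.const κ))
  have n2 : Nh (X := X) fun z _ => (q z - κ) ^ 2 := Nh.fst ((hq.sub (EG.const κ)).pow 2)
  have nD : Nh (X := X) fun z _ => D z := Nh.fst hD.eg
  have nd : Nh (X := X) fun z _ => (D z - h * q z) := Nh.fst (hD.eg.sub (hq.const_mul h))
  have ne : Nh (X := X) fun z _ => Real.exp (-(W * D z)) := by
    have := hD.exp_eg (-W)
    simp only [neg_mul] at this
    exact Nh.fst this
  have h2 := hS.Ex_mono (f := fun z _ => Real.exp (-(W * (h * κ))) * (1 + (-(W * h) * (q z - κ) +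
      (W ^ 2 * h ^ 2 / 3 * (q z - κ) ^ 2 + -(2 * W) * (D z - h * q z)))))
    (g := fun z _ => Real.exp (-(W * D z)))
    (Nh.const_mul _ (Nh.add (fun _ => EG.const 1) (Nh.add (Nh.const_mul _ n1)
      (Nh.add (Nh.const_mul _ n2) (Nh.const_mul _ nd))))) ne (fun z _ => by
      have h3 := exp_neg_ge (y := W * (D z - h * κ)) (hy z) (by
        have := mul_le_mul_of_nonneg_left (hle z) hW
        nlinarith)
      have h4 : Real.exp (-(W * D z)) =
          Real.exp (-(W * (h * κ))) * Real.exp (-(W * (D z - h * κ))) := by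
        rw [← Real.exp_add]; congr 1; ring
      rw [h4]
      refine mul_le_mul_of_nonneg_left (le_trans (le_of_eq ?_) h3) (Real.exp_pos _).le
      ring)
  have e1 : S.Ex (fun z _ => Real.exp (-(W * (h * κ))) * (1 + (-(W * h) * (q z - κ) +
      (W ^ 2 * h ^ 2 / 3 * (q z - κ) ^ 2 + -(2 * W) * (D z - h * q z))))) =
      Real.exp (-(W * (h * κ))) * (1 + W ^ 2 * h ^ 2 / 3 * vr S (fun z _ => q z) -
        2 * W * (S.Ex (fun z _ => D z) - h * κ)) := by
    rw [Ex_const_mul, hS.Ex_add (fun _ => EG.const 1) (Nh.add (Nh.const_mul _ n1)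
      (Nh.add (Nh.const_mul _ n2) (Nh.const_mul _ nd))), hS.Ex_const,
      hS.Ex_add (Nh.const_mul _ n1) (Nh.add (Nh.const_mul _ n2) (Nh.const_mul _ nd)),
      hS.Ex_add (Nh.const_mul _ n2) (Nh.const_mul _ nd),
      Ex_const_mul, Ex_const_mul, Ex_const_mul, hS.Ex_sub n0 (fun _ => EG.const κ), hS.Ex_const,
      hS.Ex_sub nD (Nh.const_mul _ n0), Ex_const_mul, ← hκ]
    unfold vr
    rw [← hκ]
    ring
  rw [e1] at h2
  have h3 := h2.trans ha
  have h4 : 1 + W ^ 2 * h ^ 2 / 3 * vr S (fun z _ => q z) -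
        2 * W * (S.Ex (fun z _ => D z) - h * κ) ≤ 1 := by
    have h5 : Real.exp (-(W * (h * κ))) * (1 + W ^ 2 * h ^ 2 / 3 * vr S (fun z _ => q z) -
        2 * W * (S.Ex (fun z _ => D z) - h * κ)) ≤ Real.exp (-(W * (h * κ))) * 1 := by
      rw [mul_one]; exact h3
    exact le_of_mul_le_mul_left h5 (Real.exp_pos _)
  have h6 : W * (S.Ex (fun z _ => D z) - h * κ) ≤ W * δ :=
    mul_le_mul_of_nonneg_left (by linarith) hW
  nlinarith [h4, h6]

end Vale.Agent.P146.H391
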