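import Vale.Agent.P146.H391.Gain

/-!
The exponent step for the SK systems with the factor `m_{l+1}` instead of `m_1`, given the
exponential inequality `Pl`.
-/

open MeasureTheory ProbabilityTheory

namespace Vale.Agent.P146.H391

open Vale.Agent.P157 Vale.Agent.P157.Lv Vale.Agent.P157.Lv.Sy Vale.Agent.P146.H425
open Vale.Agent.P146.H784 (vr)
open Vale.Agent.P146.Ub (RI lc st dsk fd ph)
open Vale.Agent.P146.Ub.Ld (SN AN rlv rlv_le)
open Vale.Agent.P146 (Pair)

set_option linter.unusedSectionVars false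
set_option linter.unusedVariables false

variable {n K N : ℕ} {m m' s : ℕ → ℝ} {β : ℝ}

section main

variable (hK : 1 ≤ K) (hm : WE K m) (hs0 : s 0 = 0) (hN : N ≤ n) (hN0 : 0 < N) {l : ℕ}
  (hl1 : 1 ≤ l) (hl : l < K)

include hK hm hs0 hN hN0 hl1 hl

/-- the forward form (both signs of the increment) -/
theorem SN_gain2 (hm' : WE K m') (heq : ∀ j, j ≠ l + 1 → m' j = m j)
    (hb : m (l + 1) * |m' (l + 1) - m (l + 1)| * (N * s (l + 1) ^ 2) ≤ 1)
    (hPl : Pl (SN n K 1 m β N s) m' l) :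
    (m' (l + 1) - m (l + 1)) * DN n K m β N s l +
      1 / 20 * m (l + 1) * (m' (l + 1) - m (l + 1)) ^ 2 *
        vr (SN n K 1 m β N s) (fun z _ => kf (SN n K 1 m β N s) l z) ≤
      AN n K 1 m' β N s - AN n K 1 m β N s :=
  gain2 (SN_lin hK hm) (SN_lin (n := n) (β := β) (N := N) (s := s) hK hm').reg
    (fun x e he => SN_zero hs0 x e he) hl1 hl heq (SN_FL hN hl1 hl) hN0 (ph_sq_le hN) hb hPl

/-- the slopes increase, quantitatively -/
theorem SN_dD2 (hm' : WE K m') (heq : ∀ j, j ≠ l + 1 → m' j = m j)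
    (hlt : m (l + 1) < m' (l + 1))
    (hb : m (l + 1) * (m' (l + 1) - m (l + 1)) * (N * s (l + 1) ^ 2) ≤ 1)
    (hPl : Pl (SN n K 1 m β N s) m' l) :
    1 / 20 * m (l + 1) * (m' (l + 1) - m (l + 1)) *
        vr (SN n K 1 m β N s) (fun z _ => kf (SN n K 1 m β N s) l z) ≤
      DN n K m' β N s l - DN n K m β N s l := by
  have hh : 0 < m' (l + 1) - m (l + 1) := by linarith
  have h1 := SN_gain2 (β := β) hK hm hs0 hN hN0 hl1 hl hm' heq (by rwa [abs_of_pos hh]) hPl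
  have h2 := SN_slope (n := n) (β := β) (N := N) hK hm' hs0 hl1 hl hm
    (fun j hj => (heq j hj).symm)
  have h3 : (m' (l + 1) - m (l + 1)) * (1 / 20 * m (l + 1) * (m' (l + 1) - m (l + 1)) *
      vr (SN n K 1 m β N s) (fun z _ => kf (SN n K 1 m β N s) l z)) ≤
      (m' (l + 1) - m (l + 1)) * (DN n K m' β N s l - DN n K m β N s l) := by
    nlinarith [h1, h2]
  exact le_of_mul_le_mul_left h3 hh

/-- **(X) with the increment of the slope and the factor `m_{l+1}`.** -/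
theorem SN_rho_dD2_of (hm' : WE K m') (heq : ∀ j, j ≠ l + 1 → m' j = m j)
    (hlt : m (l + 1) < m' (l + 1)) (hs : s (l + 1) ≠ 0)
    (hb : m (l + 1) * (m' (l + 1) - m (l + 1)) * (N * s (l + 1) ^ 2) ≤ 1)
    (hPl : Pl (SN n K 1 m β N s) m' l) :
    vr (SN n K 1 m β N s) (fun z _ => H784.rho (SN n K 1 m β N s) (ph hN) l z) ≤
    160 / (m (l + 1) * (m' (l + 1) - m (l + 1)) * (N * s (l + 1) ^ 2) ^ 2) *
        (DN n K m' β N s l - DN n K m β N s l) +
      2 * ((SN n K 1 m β N s).Rl (ph hN) (l + 1) - (SN n K 1 m β N s).Rl (ph hN) l) := by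
  have hh : 0 < m' (l + 1) - m (l + 1) := by linarith
  have hml : 0 < m (l + 1) := (SN_lin (n := n) (β := β) (N := N) (s := s) hK hm).reg.m_pos
    (l := l + 1) (by omega) (by
      show l + 1 ≤ K + 1
      omega)
  have hN0' : (0 : ℝ) < N := by exact_mod_cast hN0
  have hs2 : 0 < s (l + 1) ^ 2 := by positivity
  have h1 := SN_dD2 (β := β) hK hm hs0 hN hN0 hl1 hl hm' heq hlt hb hPl
  have h2 := SN_vr_rho_le (m := m) (β := β) hK hm hN hN0 hl1 hl hs
  refine h2.trans (add_le_add_left ?_ _)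
  have h3 : 8 / (N * s (l + 1) ^ 2) ^ 2 *
      vr (SN n K 1 m β N s) (fun z _ => kf (SN n K 1 m β N s) l z) =
      160 / (m (l + 1) * (m' (l + 1) - m (l + 1)) * (N * s (l + 1) ^ 2) ^ 2) *
        (1 / 20 * m (l + 1) * (m' (l + 1) - m (l + 1)) *
          vr (SN n K 1 m β N s) (fun z _ => kf (SN n K 1 m β N s) l z)) := by
    field_simp
    ring
  rw [h3]
  exact mul_le_mul_of_nonneg_left h1 (by positivity)

/-- **(X) with the second difference and the factor `m_{l+1}`.** -/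
theorem SN_rho_D22_of {mp mn : ℕ → ℝ} {h : ℝ} (hh : 0 < h) (hp : WE K mp) (hn : WE K mn)
    (heqp : ∀ j, j ≠ l + 1 → mp j = m j) (heqn : ∀ j, j ≠ l + 1 → mn j = m j)
    (hp1 : mp (l + 1) = m (l + 1) + h) (hn1 : mn (l + 1) = m (l + 1) - h)
    (hs : s (l + 1) ≠ 0) (hb : m (l + 1) * h * (N * s (l + 1) ^ 2) ≤ 1)
    (hPp : Pl (SN n K 1 m β N s) mp l) (hPn : Pl (SN n K 1 m β N s) mn l) :
    vr (SN n K 1 m β N s) (fun z _ => H784.rho (SN n K 1 m β N s) (ph hN) l z) ≤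
    80 / (m (l + 1) * h ^ 2 * (N * s (l + 1) ^ 2) ^ 2) *
        (AN n K 1 mp β N s + AN n K 1 mn β N s - 2 * AN n K 1 m β N s) +
      2 * ((SN n K 1 m β N s).Rl (ph hN) (l + 1) - (SN n K 1 m β N s).Rl (ph hN) l) := by
  have hml : 0 < m (l + 1) := (SN_lin (n := n) (β := β) (N := N) (s := s) hK hm).reg.m_pos
    (l := l + 1) (by omega) (by
      show l + 1 ≤ K + 1
      omega)
  have hN0' : (0 : ℝ) < N := by exact_mod_cast hN0
  have hs2 : 0 < s (l + 1) ^ 2 := by positivity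
  have h1 := SN_gain2 (β := β) hK hm hs0 hN hN0 hl1 hl hp heqp
    (by rw [hp1, add_sub_cancel_left, abs_of_pos hh]; exact hb) hPp
  have h1' := SN_gain2 (β := β) hK hm hs0 hN hN0 hl1 hl hn heqn
    (by rw [hn1, show m (l + 1) - h - m (l + 1) = -h by ring, abs_neg, abs_of_pos hh]; exact hb)
    hPn
  rw [hp1] at h1
  rw [hn1] at h1'
  have h2 := SN_vr_rho_le (m := m) (β := β) hK hm hN hN0 hl1 hl hs
  refine h2.trans (add_le_add_left ?_ _)
  obtain ⟨V, hV⟩ : ∃ V, V = vr (SN n K 1 m β N s) (fun z _ => kf (SN n K 1 m β N s) l z) :=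
    ⟨_, rfl⟩
  rw [← hV] at h1 h1' ⊢
  have h3 : 8 / (N * s (l + 1) ^ 2) ^ 2 * V =
      80 / (m (l + 1) * h ^ 2 * (N * s (l + 1) ^ 2) ^ 2) * (1 / 10 * m (l + 1) * h ^ 2 * V) := by
    field_simp
    ring
  rw [h3]
  refine mul_le_mul_of_nonneg_left ?_ (by positivity)
  nlinarith [h1, h1']

end main

end Vale.Agent.P146.H391
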