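import Vale.Agent.P146.H391.SnPl
import Vale.Agent.P146.H394.Fin3

/-!
The sum over the stages, without hypotheses.
-/

open MeasureTheory ProbabilityTheory

namespace Vale.Agent.P146.H391

open Vale.Agent.P157.Par (Path Exponents incr)
open Vale.Agent.P146.H394 (PlSN RhoD sv VKs)

/-- The exponential inequality of the planted gauge holds for the SK systems. -/
theorem plSN : PlSN := fun _ _ _ _ _ _ _ _ hK hm hs0 hN hN0 hl1 hl hm' heq =>
  SN_Pl hK hm hs0 hN hN0 hl1 hl hm' heq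

/-- The variance of the overlap of a level by the increment of the slope. -/
theorem rhoD : RhoD := H394.rhoD_of plSN

/-- **The sum over the stages.** -/
theorem sumN3 {n k J : ℕ} {β r lam G C0 C : ℝ} (hC : 0 ≤ C)
    (hr : 0 < r) (hr1 : r ≤ 1 / 2) (hlam : 0 < lam) (hJ : 0 < J)
    (h2 : 4 * (J : ℝ) * Real.exp (-((k : ℝ) / J)) ≤ 1)
    (chain : ∀ m : ℕ → ℝ, Exponents (k + 1) m → m 1 = r →
      G ≤ C0 + ∑ N ∈ Finset.Ico 1 n, C * VKs n k m β (sv lam r k) N) :
    G ≤ C0 + ∑ N ∈ Finset.Ico 1 n, C * (24 / J + 4 / (J * (N * lam * r)) +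
        2 * √(5 * Real.log (1 / r) / (J * (N * lam))) + 6400 * k / (J * (lam * N))) :=
  H394.sumN3 plSN hC hr hr1 hlam hJ h2 chain

end Vale.Agent.P146.H391
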