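import Vale.Agent.P146.H391.Ext
import Vale.Agent.P146.H420.TJ

/-!
The gain over the slope is at least `1/20 m_{l+1} h²` times the variance of the slope, if the
exponential inequality `hPl` (from the log-concavity in the exponent) holds.
-/

open MeasureTheory ProbabilityTheory

namespace Vale.Agent.P146.H391

open Vale.Agent.P157 Vale.Agent.P157.Lv Vale.Agent.P157.Lv.Sy Vale.Agent.P146.H425
open Vale.Agent.P146.H784 (vr)

set_option linter.unusedSectionVars false
set_option linter.unusedVariables false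

variable {ι X : Type} [Fintype ι] [DecidableEq ι] [Fintype X] [DecidableEq X] [Nonempty X]

variable {S : Sy ι X} {a : X → ι → ℝ} {c : X → ℝ} {l : ℕ} {m' : ℕ → ℝ} {N : ℕ}
  {φ : X → Fin N → ℝ} {s : ℝ}

/-- The exponential inequality for the differences of the log-weights. -/
def Pl (S : Sy ι X) (m' : ℕ → ℝ) (l : ℕ) : Prop :=
  ∀ J, 1 ≤ J → J ≤ l →
    S.Ex (fun z _ => Real.exp (-((S.m (l + 1) - S.m J) * ((wm S m').lg J z - S.lg J z)))) ≤
      Real.exp (-((S.m (l + 1) - S.m J) *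
        ((m' (l + 1) - S.m (l + 1)) * S.Ex (fun z _ => kf S l z))))

omit [DecidableEq ι] [DecidableEq X] in
/-- the last level with an exponent at most one half of `m_{l+1}` -/
lemma exists_J (S : Sy ι X) {l : ℕ} (hl1 : 1 ≤ l) (h1 : S.m 1 ≤ S.m (l + 1) / 2) :
    ∃ J, 1 ≤ J ∧ J ≤ l ∧ S.m J ≤ S.m (l + 1) / 2 ∧
      ∀ j, J < j → j ≤ l → S.m (l + 1) / 2 ≤ S.m j := by
  classical
  refine ⟨Nat.findGreatest (fun j => S.m j ≤ S.m (l + 1) / 2) l,
    Nat.le_findGreatest hl1 h1, Nat.findGreatest_le l,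
    Nat.findGreatest_spec (P := fun j => S.m j ≤ S.m (l + 1) / 2) hl1 h1, fun j hj hj' => ?_⟩
  have := Nat.findGreatest_is_greatest hj hj'
  exact (not_le.1 this).le

omit [DecidableEq ι] [DecidableEq X] in
lemma lip_df (hS : S.Reg) (hS' : (wm S m').Reg) {j : ℕ} (hj : j ≤ S.K) :
    Lip fun z => (wm S m').lg j z - S.lg j z := by
  have h1 := (hS'.lip_lg hj).add ((hS.lip_lg hj).const_mul (-1))
  have e : (fun z => (wm S m').lg j z - S.lg j z) =
      fun z => (wm S m').lg j z + -1 * S.lg j z := by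
    funext z; ring
  rw [e]
  exact h1

/-- the first order part below the level `J` -/
lemma T_le_df (hS : S.Reg) (hS' : (wm S m').Reg) {l0 J : ℕ} (hl0 : l0 ≤ S.K) (hJ : J ≤ l0)
    {r : ℝ} (hr : 0 < r) (heq : ∀ j, J < j → j ≤ l0 → m' j = S.m j)
    (hrm : ∀ j, J < j → j ≤ l0 → r ≤ S.m j)
    {k : (ι → ℝ) → ℝ} (hk : EG k) {h : ℝ}
    (hle : ∀ z, h * k z ≤ (wm S m').lg l0 z - S.lg l0 z) (z : ι → ℝ) :
    h * S.T J (fun z _ => k z) z ≤ (wm S m').lg J z - S.lg J z := by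
  have hL := lip_df hS hS' hl0
  have h1 := H420.T_exp_le_J hS hS' hl0 hJ hr heq hrm z
  have h2 := exp_T_le hS (hJ.trans hl0) (hL.eg.const_mul r) (hL.exp_eg r) z
  have h3 := Real.exp_le_exp.1 (h2.trans h1)
  rw [T_const_mul] at h3
  have h4 := le_of_mul_le_mul_left h3 hr
  refine le_trans ?_ h4
  rw [← T_const_mul]
  exact hS.T_mono (hJ.trans hl0) (Nh.const_mul _ (Nh.fst hk)) (Nh.fst hL.eg)
    (fun z _ => hle z) z

/-- **The gain over the slope, with the exponent `m_{l+1}`.** -/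
theorem gain2 (h : LinS S a c) (h' : (wm S m').Reg) (h0 : ∀ x e, S.lev e = 0 → a x e = 0)
    (hl1 : 1 ≤ l) (hl : l < S.K) (heq : ∀ j, j ≠ l + 1 → m' j = S.m j)
    (hF : FL S a φ l s) (hN : 0 < N) (hφ : ∀ x i, (φ x i) ^ 2 ≤ 1)
    (hb : S.m (l + 1) * |m' (l + 1) - S.m (l + 1)| * (N * s ^ 2) ≤ 1) (hPl : Pl S m' l) :
    (m' (l + 1) - S.m (l + 1)) * mk S l +
      1 / 20 * S.m (l + 1) * (m' (l + 1) - S.m (l + 1)) ^ 2 * vr S (fun z _ => kf S l z) ≤
      (wm S m').fe - S.fe := by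
  have hS := h.reg
  have hr : 0 < S.m 1 := hS.pos
  have hm : 0 < S.m (l + 1) := hS.m_pos (by omega) (by omega)
  have hNs : 0 ≤ (N : ℝ) * s ^ 2 := by positivity
  have hm' : 0 < m' (l + 1) := h'.m_pos (by omega) (by rw [wm_K]; omega)
  have nk : Nh (X := X) fun z _ => kf S l z := Nh.fst (eg_kf hS hl)
  have hV : 0 ≤ vr S (fun z _ => kf S l z) := vr_nonneg' hS nk
  obtain ⟨H, hH⟩ : ∃ H, H = m' (l + 1) - S.m (l + 1) := ⟨_, rfl⟩
  have hsl := slope_le h h' h0 hl1 hl heq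
  rw [← hH] at hb hsl ⊢
  by_cases h1 : S.m 1 ≤ S.m (l + 1) / 2
  · obtain ⟨J, hJ1, hJl, hJm, hJj⟩ := exists_J S hl1 h1
    have hJK : J ≤ S.K := by omega
    have hle : ∀ z, H * kf S l z ≤ (wm S m').lg l z - S.lg l z := fun z => by
      have := h.tangent_lg hl hm' (fun j hj _ => heq j (by omega)) z
      rw [← hH] at this
      linarith
    obtain ⟨q, hq⟩ : ∃ q : (ι → ℝ) → ℝ, q = fun z => S.T J (fun z _ => kf S l z) z := ⟨_, rfl⟩
    have eq' : EG q := by rw [hq]; exact hS.eg_T hJK nk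
    have k0 := kf_nonneg h hF hN hl
    have k1 := kf_le_const h hF hN hl hφ
    have hq0 : ∀ z, 0 ≤ q z := by
      intro z
      rw [hq]
      simp only
      rw [← hS.T_const hJK 0 z]
      exact hS.T_mono hJK (fun _ => EG.const 0) nk (fun z _ => k0 z) z
    have hq1 : ∀ z, q z ≤ N * s ^ 2 / 2 := by
      intro z
      rw [hq]
      simp only
      rw [← hS.T_const hJK (N * s ^ 2 / 2) z]
      exact hS.T_mono hJK nk (fun _ => EG.const _) (fun z _ => k1 z) z
    obtain ⟨δ, hδ⟩ : ∃ δ, δ = (wm S m').fe - S.fe - H * mk S l := ⟨_, rfl⟩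
    have hδ0 : 0 ≤ δ := by rw [hδ]; linarith
    obtain ⟨W, hW⟩ : ∃ W, W = S.m (l + 1) - S.m J := ⟨_, rfl⟩
    have hJ0 : 0 < S.m J := hS.m_pos (by omega) (by omega)
    have hW0 : S.m (l + 1) / 2 ≤ W := by rw [hW]; linarith
    have hWp : 0 < W := by linarith
    have hW1 : W ≤ S.m (l + 1) := by rw [hW]; linarith
    have hlD := lip_df hS h' hJK
    have hExq : S.Ex (fun z _ => q z) = mk S l := by
      rw [hq]
      exact hS.Ex_T hJK nk
    have hED : S.Ex (fun z _ => (wm S m').lg J z - S.lg J z) ≤ H * mk S l + δ := by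
      have h2 := fe_sub_ge hS h' hJK hr (fun j hj hj' => heq j (by omega))
        (fun j hj hj' => hS.m_mono hj (by omega)) (lg_zero_const h h0)
        (lg_zero_const (h.wm h') h0) (g := fun z => (wm S m').lg J z - S.lg J z) hlD.eg
        (fun z => le_rfl)
      rw [hδ]
      linarith
    have hHab : 0 ≤ |H| := abs_nonneg H
    have hbW : W * |H| * (N * s ^ 2 / 2) ≤ 1 / 2 := by
      have h3 : W * |H| * (N * s ^ 2) ≤ S.m (l + 1) * |H| * (N * s ^ 2) :=
        mul_le_mul_of_nonneg_right (mul_le_mul_of_nonneg_right hW1 hHab) hNs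
      linarith
    have h3 := ext (S := S) hS (D := fun z => (wm S m').lg J z - S.lg J z) (q := q) hlD eq'
      (W := W) (h := H) (b := N * s ^ 2 / 2) (κ := mk S l) (δ := δ) hWp.le hq0 hq1 hExq.symm hbW
      (fun z => by
        rw [hq]
        exact T_le_df hS h' hl.le hJl hr (fun j hj hj' => heq j (by omega))
          (fun j hj hj' => hS.m_mono (by omega) (by omega)) (eg_kf hS hl) hle z) hED
      (by
        have h4 := hPl J hJ1 hJl
        rw [← hW, ← hH] at h4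
        exact h4)
    have h5 := H420.gain_J hS h' (l0 := l) (J := J) hl.le hJl (r0 := S.m 1) hr
      (r := S.m (l + 1) / 2)
      (by linarith) (fun j hj hj' => heq j (by omega))
      (fun j hj hj' => hS.m_mono hj (by omega)) hJj (lg_zero_const h h0)
      (lg_zero_const (h.wm h') h0) (eg_kf hS hl) (h := H) (b := N * s ^ 2 / 2) k0 k1
      (by
        have h6 : S.m (l + 1) / 2 * |H| * (N * s ^ 2 / 2) =
          (S.m (l + 1) * |H| * (N * s ^ 2)) / 4 := by ring
        rw [h6]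
        linarith) hle
    have h7 := H420.vr_split hS hJK (eg_kf hS hl)
    have hV1 : 0 ≤ vr S (fun z _ => S.T J (fun z _ => kf S l z) z) :=
      vr_nonneg' hS (Nh.fst (hS.eg_T hJK nk))
    rw [h7]
    obtain ⟨V1, hV1'⟩ : ∃ V1, V1 = vr S (fun z _ => S.T J (fun z _ => kf S l z) z) := ⟨_, rfl⟩
    obtain ⟨V2, hV2'⟩ : ∃ V2, V2 = S.Ex (fun z _ =>
      (kf S l z - S.T J (fun z _ => kf S l z) z) ^ 2) := ⟨_, rfl⟩
    rw [hq] at h3
    rw [← hV1'] at h3 hV1 ⊢
    rw [← hV2'] at h5 ⊢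
    have h8 : S.Ex (fun z _ => kf S l z) = mk S l := rfl
    rw [h8] at h5
    have h9 : W * (W * H ^ 2 * V1) ≤ W * (6 * δ) := by nlinarith [h3]
    have h10 : W * H ^ 2 * V1 ≤ 6 * δ := le_of_mul_le_mul_left h9 hWp
    have h11 : S.m (l + 1) / 2 * (H ^ 2 * V1) ≤ W * (H ^ 2 * V1) :=
      mul_le_mul_of_nonneg_right hW0 (by positivity)
    have h12 : 1 / 4 * (S.m (l + 1) / 2) * H ^ 2 * V2 ≤ δ := by rw [hδ]; linarith
    have h13 : (wm S m').fe - S.fe = δ + H * mk S l := by rw [hδ]; ring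
    rw [h13]
    nlinarith [h10, h11, h12]
  · have h1' : S.m (l + 1) / 2 < S.m 1 := not_le.1 h1
    have h2 := gain_ge h h' h0 hl1 hl heq hF hN hφ (by
      rw [← hH]
      have h3 : S.m 1 * |H| * (N * s ^ 2) ≤ S.m (l + 1) * |H| * (N * s ^ 2) :=
        mul_le_mul_of_nonneg_right (mul_le_mul_of_nonneg_right
          (hS.m_mono (by omega) (by omega)) (abs_nonneg H)) hNs
      linarith)
    rw [← hH] at h2
    refine le_trans (add_le_add_right ?_ _) h2
    have h4 : 0 ≤ H ^ 2 * vr S (fun z _ => kf S l z) := by positivity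
    nlinarith [h4]

end Vale.Agent.P146.H391
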