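import Vale.Agent.P146.H329.Fb1
import Vale.Agent.P146.H425.Gauss
import Vale.Agent.P146.H706.Two

/-!
The one-dimensional Mehler inequality with the cube: for odd functions `A`, `B` without linear
part and a Gaussian pair of correlation `c`, `|E A(X) B(Y)| ≤ |c|³ |A|₂ |B|₂`.
-/

open MeasureTheory ProbabilityTheory Filter Topology

namespace Vale.Agent.P146.H391

open Vale.Agent.P157.Lv Vale.Agent.P146.H329

set_option linter.unusedSectionVars false

/-! ### two coordinates -/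

/-- the second position -/
def ys (c s : ℝ) (z : Fin 2 → ℝ) : ℝ := c * z 0 + s * z 1

lemma eg_x2 {f : ℝ → ℝ} (hf : CcE f) : EG fun z : Fin 2 → ℝ => f (z 0) := by
  obtain ⟨C, a, hC, ha, hb⟩ := hf.bdd
  refine ⟨hf.meas.comp (measurable_pi_apply 0), C, a, hC, ha, fun z => ?_⟩
  refine (hb _).trans (mul_le_mul_of_nonneg_left (Real.exp_le_exp.2 ?_) hC)
  exact mul_le_mul_of_nonneg_left (norm_le_pi_norm z 0) ha

lemma abs_ys_le (c s : ℝ) (z : Fin 2 → ℝ) : |ys c s z| ≤ (|c| + |s|) * ‖z‖ := by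
  unfold ys
  have h0 : |z 0| ≤ ‖z‖ := norm_le_pi_norm z 0
  have h1 : |z 1| ≤ ‖z‖ := norm_le_pi_norm z 1
  calc |c * z 0 + s * z 1| ≤ |c * z 0| + |s * z 1| := abs_add_le _ _
    _ = |c| * |z 0| + |s| * |z 1| := by rw [abs_mul, abs_mul]
    _ ≤ |c| * ‖z‖ + |s| * ‖z‖ := add_le_add (mul_le_mul_of_nonneg_left h0 (abs_nonneg _))
        (mul_le_mul_of_nonneg_left h1 (abs_nonneg _))
    _ = _ := by ring

lemma meas_ys (c s : ℝ) : Measurable (ys c s) := by
  have h : Measurable fun z : Fin 2 → ℝ => c * z 0 + s * z 1 := by fun_prop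
  exact h

lemma eg_y2 {f : ℝ → ℝ} (hf : CcE f) (c s : ℝ) : EG fun z : Fin 2 → ℝ => f (ys c s z) := by
  obtain ⟨C, a, hC, ha, hb⟩ := hf.bdd
  refine ⟨hf.meas.comp (meas_ys c s), C, a * (|c| + |s|), hC, by positivity, fun z => ?_⟩
  refine (hb _).trans (mul_le_mul_of_nonneg_left (Real.exp_le_exp.2 ?_) hC)
  rw [mul_assoc]
  exact mul_le_mul_of_nonneg_left (abs_ys_le c s z) ha

lemma int_two (F : ℝ × ℝ → ℝ) :
    ∫ z : Fin 2 → ℝ, F (z 0, z 1) ∂(gI (Fin 2)) =
      ∫ p, F p ∂((gaussianReal 0 1).prod (gaussianReal 0 1)) := by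
  have h := measurePreserving_finTwoArrow (gaussianReal 0 1)
  have h2 := h.integral_comp' (g := F)
  exact h2

lemma int_y2 {c s : ℝ} (h : c ^ 2 + s ^ 2 = 1) {f : ℝ → ℝ} (hf : Measurable f) :
    ∫ z : Fin 2 → ℝ, f (ys c s z) ∂(gI (Fin 2)) = ∫ x, f x ∂(gaussianReal 0 1) := by
  have h1 := int_two (fun p : ℝ × ℝ => f (c * p.1 + s * p.2))
  refine h1.trans ?_
  conv_rhs => rw [← H425.map_mix_one h]
  rw [integral_map (by fun_prop) hf.aestronglyMeasurable]

lemma ys_one (z : Fin 2 → ℝ) : ys 1 0 z = z 0 := by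
  unfold ys
  ring

lemma int_x2 {f : ℝ → ℝ} (hf : Measurable f) :
    ∫ z : Fin 2 → ℝ, f (z 0) ∂(gI (Fin 2)) = ∫ x, f x ∂(gaussianReal 0 1) := by
  have h := int_y2 (c := 1) (s := 0) (by norm_num) hf
  simpa only [ys_one] using h

/-! ### the identity -/

variable {A B G H : ℝ → ℝ} {c s : ℝ}

lemma upd_ys (y : Fin 2 → ℝ) (t : ℝ) : ys c s (Function.update y 0 t) = c * t + s * y 1 := by
  unfold ys
  simp

lemma upd_ys1 (y : Fin 2 → ℝ) (t : ℝ) : ys c s (Function.update y 1 t) = c * y 0 + s * t := by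
  unfold ys
  simp

lemma pd_ys0 : PD (0 : Fin 2) (ys c s) (fun _ => c) := by
  intro y x
  simp only [upd_ys]
  exact (((hasDerivAt_id' x).const_mul c).add_const (s * y 1)).congr_deriv (by ring)

lemma pd_ys1 : PD (1 : Fin 2) (ys c s) (fun _ => s) := by
  intro y x
  simp only [upd_ys1]
  exact (((hasDerivAt_id' x).const_mul s).const_add (c * y 0)).congr_deriv (by ring)

/-- the correlation of two functions -/
noncomputable def cr (c s : ℝ) (A B : ℝ → ℝ) : ℝ :=
  ∫ z : Fin 2 → ℝ, A (z 0) * B (ys c s z) ∂(gI (Fin 2))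

/-- `E A(X) B(Y) = c E G(X) H(Y) + c² E G'(X) H'(Y)`. -/
theorem cr_eq (hG : GA G A) (hH : GA H B) (h : c ^ 2 + s ^ 2 = 1) :
    cr c s A B = c * cr c s G H +
      c ^ 2 * cr c s (fun t => t * G t - A t) (fun t => t * H t - B t) := by
  have eA := eg_x2 hG.a
  have eG := eg_x2 hG.g
  have eG' := eg_x2 hG.d
  have eB := eg_y2 hH.a c s
  have eH := eg_y2 hH.g c s
  have eH' := eg_y2 hH.d c s
  have e0 : EG fun z : Fin 2 → ℝ => z 0 := EG.coord 0
  -- the first integration by parts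
  have p1 : PD (1 : Fin 2) (fun z => A (z 0) * H (ys c s z))
      (fun z => A (z 0) * ((ys c s z * H (ys c s z) - B (ys c s z)) * s)) := by
    have q1 : PD (1 : Fin 2) (fun z : Fin 2 → ℝ => A (z 0)) (fun _ => 0) := by
      refine PD.of_indep fun y t => ?_
      rw [Function.update_of_ne (by decide)]
    have q2 := pd_ys1 (c := c) (s := s)
    have q3 := PD.comp q2 hH.der
    refine (PD.mul q1 q3).congr fun y => ?_
    ring
  have s1 := p1.stein (eA.mul eH) (eA.mul (eg_mul_right eH' s))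
  -- the second one
  have p2 : PD (0 : Fin 2) (fun z => z 0 * G (z 0) * H (ys c s z))
      (fun z => (G (z 0) + z 0 * (z 0 * G (z 0) - A (z 0))) * H (ys c s z) +
        z 0 * G (z 0) * ((ys c s z * H (ys c s z) - B (ys c s z)) * c)) := by
    have q0 : PD (0 : Fin 2) (fun z : Fin 2 → ℝ => z 0) (fun _ => 1) := by
      have := PD.coord (e := (0 : Fin 2)) (0 : Fin 2)
      simpa using this
    have q1 := PD.comp q0 hG.der
    have q2 := pd_ys0 (c := c) (s := s)
    have q3 := PD.comp q2 hH.der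
    refine (PD.mul (PD.mul q0 q1) q3).congr fun y => ?_
    ring
  have s2 := p2.stein ((e0.mul eG).mul eH)
    (((eG.add (e0.mul eG')).mul eH).add ((e0.mul eG).mul (eg_mul_right eH' c)))
  -- the sum
  have i1 : EG fun z : Fin 2 → ℝ => z 1 * (A (z 0) * H (ys c s z)) := (EG.coord 1).mul (eA.mul eH)
  have i2 : EG fun z : Fin 2 → ℝ => A (z 0) * ((ys c s z * H (ys c s z) - B (ys c s z)) * s) :=
    eA.mul (eg_mul_right eH' s)
  have i3 : EG fun z : Fin 2 → ℝ => z 0 * (z 0 * G (z 0) * H (ys c s z)) :=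
    e0.mul ((e0.mul eG).mul eH)
  have i4 : EG fun z : Fin 2 → ℝ => (G (z 0) + z 0 * (z 0 * G (z 0) - A (z 0))) * H (ys c s z) +
        z 0 * G (z 0) * ((ys c s z * H (ys c s z) - B (ys c s z)) * c) :=
    ((eG.add (e0.mul eG')).mul eH).add ((e0.mul eG).mul (eg_mul_right eH' c))
  have i5 : EG fun z : Fin 2 → ℝ => G (z 0) * H (ys c s z) := eG.mul eH
  have i6 : EG fun z : Fin 2 → ℝ => (z 0 * G (z 0) - A (z 0)) *
      (ys c s z * H (ys c s z) - B (ys c s z)) := eG'.mul eH'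
  have key : ∀ z : Fin 2 → ℝ, A (z 0) * B (ys c s z) =
      (s * (z 1 * (A (z 0) * H (ys c s z)) -
          A (z 0) * ((ys c s z * H (ys c s z) - B (ys c s z)) * s)) +
        c * (z 0 * (z 0 * G (z 0) * H (ys c s z)) -
          ((G (z 0) + z 0 * (z 0 * G (z 0) - A (z 0))) * H (ys c s z) +
            z 0 * G (z 0) * ((ys c s z * H (ys c s z) - B (ys c s z)) * c)))) +
      (c * (G (z 0) * H (ys c s z)) + c ^ 2 * ((z 0 * G (z 0) - A (z 0)) *
        (ys c s z * H (ys c s z) - B (ys c s z)))) := by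
    intro z
    have e : ys c s z = c * z 0 + s * z 1 := rfl
    have h' : s ^ 2 = 1 - c ^ 2 := by linarith
    generalize H (ys c s z) = Hy
    generalize B (ys c s z) = By
    rw [e]
    linear_combination (A (z 0) * ((c * z 0 + s * z 1) * Hy - By)) * h'
  unfold cr
  simp_rw [key]
  rw [integral_add (((i1.sub i2).const_mul s).add ((i3.sub i4).const_mul c)).integrable
      ((i5.const_mul c).add (i6.const_mul (c ^ 2))).integrable,
    integral_add ((i1.sub i2).const_mul s).integrable ((i3.sub i4).const_mul c).integrable,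
    integral_const_mul, integral_const_mul, integral_sub i1.integrable i2.integrable,
    integral_sub i3.integrable i4.integrable, s1, s2,
    integral_add (i5.const_mul c).integrable (i6.const_mul (c ^ 2)).integrable,
    integral_const_mul, integral_const_mul]
  ring

/-- the square norm -/
noncomputable def nm (A : ℝ → ℝ) : ℝ := ∫ x, A x ^ 2 ∂(gaussianReal 0 1)

lemma nm_nonneg (A : ℝ → ℝ) : 0 ≤ nm A := integral_nonneg fun _ => sq_nonneg _

lemma nm_eq (hG : GA G A) : nm A = nm G + nm (fun t => t * G t - A t) := by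
  have h := cr_eq (c := 1) (s := 0) hG hG (by norm_num)
  have e : ∀ f : ℝ → ℝ, Measurable f → cr 1 0 f f = nm f := by
    intro f hf
    unfold cr nm
    simp only [ys_one]
    rw [← int_x2 (f := fun x => f x ^ 2) (hf.pow_const 2)]
    exact integral_congr_ae (Eventually.of_forall fun z => by simp only; ring)
  rw [e A hG.a.meas, e G hG.g.meas, e _ hG.d.meas] at h
  linarith

lemma mean_eq (hG : GA G A) : ∫ x, x * A x ∂(gaussianReal 0 1) = ∫ x, G x ∂(gaussianReal 0 1) := by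
  have hd : ∀ t : ℝ, HasDerivAt (fun t => t * G t) (G t + t * (t * G t - A t)) t := by
    intro t
    refine ((hasDerivAt_id' t).fun_mul (hG.der t)).congr_deriv ?_
    ring
  have c1 : CcE fun t => t * G t := CcE.id.mul hG.g
  have c2 : CcE fun t => t * (t * G t - A t) := CcE.id.mul hG.d
  have h1 := stein_one_int _ _ hd c1.integrable (CcE.id.mul c1).integrable
    (hG.g.add c2).integrable
  rw [CcE.int_add hG.g c2] at h1
  have h2 : ∫ x, x * A x ∂(gaussianReal 0 1) = ∫ x, (x * (x * G x) - x * (x * G x - A x))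
      ∂(gaussianReal 0 1) := by
    congr 1
    funext x
    ring
  rw [h2, CcE.int_sub (CcE.id.mul c1) c2, h1]
  ring

lemma cr_le (hA : CcE A) (hB : CcE B) (h : c ^ 2 + s ^ 2 = 1) :
    |cr c s A B| ≤ √(nm A) * √(nm B) := by
  have eA := eg_x2 hA
  have eB := eg_y2 hB c s
  have h1 := (H706.int_mul_le (P := gI (Fin 2)) eA.meas eB.meas (eA.pow 2).integrable
    (eB.pow 2).integrable).2
  rw [int_x2 (f := fun x => A x ^ 2) (hA.meas.pow_const 2),
    int_y2 h (f := fun x => B x ^ 2) (hB.meas.pow_const 2)] at h1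
  exact h1

lemma cs2 {a b a' b' : ℝ} (ha : 0 ≤ a) (hb : 0 ≤ b) (ha' : 0 ≤ a') (hb' : 0 ≤ b') :
    √a * √b + √a' * √b' ≤ √(a + a') * √(b + b') := by
  rw [← Real.sqrt_mul (add_nonneg ha ha')]
  refine Real.le_sqrt_of_sq_le ?_
  have h1 := Real.sq_sqrt ha
  have h2 := Real.sq_sqrt hb
  have h3 := Real.sq_sqrt ha'
  have h4 := Real.sq_sqrt hb'
  nlinarith [sq_nonneg (√a * √b' - √a' * √b), Real.sqrt_nonneg a, Real.sqrt_nonneg b,
    Real.sqrt_nonneg a', Real.sqrt_nonneg b']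

lemma abs_c_le (h : c ^ 2 + s ^ 2 = 1) : |c| ≤ 1 := by
  rw [← sq_le_one_iff_abs_le_one]
  nlinarith [sq_nonneg s]

/-- the step from `G`, `G'` to `A` -/
lemma cr_step (hG : GA G A) (hH : GA H B) (h : c ^ 2 + s ^ 2 = 1) {k : ℝ} (hk : 0 ≤ k)
    (h1 : |c * cr c s G H| ≤ k * (√(nm G) * √(nm H)))
    (h2 : |c ^ 2 * cr c s (fun t => t * G t - A t) (fun t => t * H t - B t)| ≤
      k * (√(nm fun t => t * G t - A t) * √(nm fun t => t * H t - B t))) :
    |cr c s A B| ≤ k * (√(nm A) * √(nm B)) := by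
  rw [cr_eq hG hH h, nm_eq hG, nm_eq hH]
  refine (abs_add_le _ _).trans ((add_le_add h1 h2).trans ?_)
  rw [← mul_add]
  exact mul_le_mul_of_nonneg_left (cs2 (nm_nonneg _) (nm_nonneg _) (nm_nonneg _) (nm_nonneg _)) hk

lemma ga_of_oe (hA : OE A) : GA (Gt A) A :=
  ⟨Gt_deriv hA, Gt_cce hA, cce_of hA.cont hA.bdd⟩

/-- **odd functions** -/
theorem cr_odd (hA : OE A) (hB : OE B) (h : c ^ 2 + s ^ 2 = 1) :
    |cr c s A B| ≤ |c| * (√(nm A) * √(nm B)) := by
  have hG := ga_of_oe hA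
  have hH := ga_of_oe hB
  have hc := abs_c_le h
  refine cr_step hG hH h (abs_nonneg c) ?_ ?_
  · rw [abs_mul]
    exact mul_le_mul_of_nonneg_left (cr_le hG.g hH.g h) (abs_nonneg c)
  · rw [abs_mul, abs_pow]
    have h1 := cr_le hG.d hH.d h
    have h2 : |c| ^ 2 ≤ |c| := by nlinarith [abs_nonneg c]
    exact mul_le_mul h2 h1 (abs_nonneg _) (abs_nonneg _)

/-! ### even functions of mean zero -/

/-- Continuous even functions of exponential growth and of mean zero. -/
structure EE (A : ℝ → ℝ) : Prop where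
  cont : Continuous A
  even : ∀ t, A (-t) = A t
  bdd : ∃ C a : ℝ, 0 ≤ C ∧ 0 ≤ a ∧ ∀ t, |A t| ≤ C * Real.exp (a * |t|)
  mean : ∫ x, A x ∂(gaussianReal 0 1) = 0

lemma ge_deriv (hA : Continuous A)
    (hb : ∃ C a : ℝ, 0 ≤ C ∧ 0 ≤ a ∧ ∀ t, |A t| ≤ C * Real.exp (a * |t|)) (t : ℝ) :
    HasDerivAt (Gt A) (t * Gt A t - A t) t := by
  have hi := int_wt (cce_of hA hb)
  have hcont : Continuous fun s => A s * Real.exp (-(s ^ 2 / 2)) := by
    fun_prop
  have e1 : ∀ u : ℝ, ∫ s in Set.Ioi u, A s * Real.exp (-(s ^ 2 / 2)) =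
      (∫ s in Set.Ioi (0 : ℝ), A s * Real.exp (-(s ^ 2 / 2))) -
        ∫ s in (0 : ℝ)..u, A s * Real.exp (-(s ^ 2 / 2)) := by
    intro u
    have := intervalIntegral.integral_interval_add_Ioi (a := (0 : ℝ)) (b := u)
      (f := fun s => A s * Real.exp (-(s ^ 2 / 2))) (μ := volume) hi.integrableOn hi.integrableOn
    linarith
  have h1 : HasDerivAt (fun u : ℝ => ∫ s in Set.Ioi u, A s * Real.exp (-(s ^ 2 / 2)))
      (-(A t * Real.exp (-(t ^ 2 / 2)))) t := by
    have h2 : HasDerivAt (fun u : ℝ => ∫ s in (0 : ℝ)..u, A s * Real.exp (-(s ^ 2 / 2)))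
        (A t * Real.exp (-(t ^ 2 / 2))) t :=
      intervalIntegral.integral_hasDerivAt_right hi.intervalIntegrable
        (hcont.stronglyMeasurableAtFilter _ _) hcont.continuousAt
    have h3 := h2.const_sub (∫ s in Set.Ioi (0 : ℝ), A s * Real.exp (-(s ^ 2 / 2)))
    exact h3.congr_of_eventuallyEq (Filter.Eventually.of_forall e1)
  have h4 : HasDerivAt (fun u : ℝ => Real.exp (u ^ 2 / 2)) (Real.exp (t ^ 2 / 2) * t) t := by
    have h5 : HasDerivAt (fun u : ℝ => u ^ 2 / 2) t t := by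
      have := (hasDerivAt_pow 2 t).div_const 2
      refine this.congr_deriv ?_
      push_cast
      ring
    exact h5.exp
  have h6 := h4.mul h1
  refine h6.congr_deriv ?_
  unfold Gt
  have : Real.exp (t ^ 2 / 2) * Real.exp (-(t ^ 2 / 2)) = 1 := by
    rw [← Real.exp_add]; simp
  linear_combination (-(A t)) * this

/-- the total mass of the weighted function -/
lemma int_wt_zero {f : ℝ → ℝ} (h : ∫ x, f x ∂(gaussianReal 0 1) = 0) :
    ∫ s : ℝ, f s * Real.exp (-(s ^ 2 / 2)) = 0 := by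
  rw [integral_gaussianReal_eq_integral_smul one_ne_zero] at h
  have hs : Real.sqrt (2 * Real.pi * ((1 : NNReal) : ℝ)) ≠ 0 := by
    have : 0 < 2 * Real.pi * ((1 : NNReal) : ℝ) := by
      have := Real.pi_pos
      simp only [NNReal.coe_one]
      positivity
    exact (Real.sqrt_pos.2 this).ne'
  have e : ∀ x : ℝ, f x * Real.exp (-(x ^ 2 / 2)) = Real.sqrt (2 * Real.pi * ((1 : NNReal) : ℝ)) *
      (gaussianPDFReal 0 1 x • f x) := by
    intro x
    simp only [gaussianPDFReal_def, sub_zero, NNReal.coe_one, mul_one, smul_eq_mul] at hs ⊢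
    field_simp
  simp_rw [e]
  rw [integral_const_mul, h, mul_zero]

lemma ge_odd (hA : EE A) (t : ℝ) : Gt A (-t) = -Gt A t := by
  have hi := int_wt (cce_of hA.cont hA.bdd)
  have hz := int_wt_zero hA.mean
  have h1 : ∫ s in Set.Ioi (-t), A s * Real.exp (-(s ^ 2 / 2)) =
      ∫ s in Set.Iic t, A s * Real.exp (-(s ^ 2 / 2)) := by
    have h := integral_comp_neg_Iic t (fun s => A s * Real.exp (-(s ^ 2 / 2)))
    rw [← h]
    refine setIntegral_congr_fun measurableSet_Iic fun s _ => ?_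
    simp only [hA.even, neg_sq]
  have h2 : (∫ s in Set.Iic t, A s * Real.exp (-(s ^ 2 / 2))) +
      ∫ s in Set.Ioi t, A s * Real.exp (-(s ^ 2 / 2)) = 0 := by
    rw [← hz]
    exact intervalIntegral.integral_Iic_add_Ioi hi.integrableOn hi.integrableOn
  unfold Gt
  rw [neg_sq, h1]
  have h3 : ∫ s in Set.Iic t, A s * Real.exp (-(s ^ 2 / 2)) =
      -∫ s in Set.Ioi t, A s * Real.exp (-(s ^ 2 / 2)) := by linarith
  rw [h3]
  ring

lemma ge_bdd (hA : EE A) : ∃ C a : ℝ, 0 ≤ C ∧ 0 ≤ a ∧ ∀ t, |Gt A t| ≤ C * Real.exp (a * |t|) := by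
  have hi := int_wt (cce_of hA.cont hA.bdd)
  obtain ⟨C, a, hC, ha, hb⟩ := hA.bdd
  have hK : Integrable fun u : ℝ => Real.exp (a * |u|) * Real.exp (-(u ^ 2 / 2)) := by
    refine int_wt (CcE.of_bdd (by fun_prop) (C := 1) (a := a) zero_le_one ha fun x => ?_)
    rw [abs_of_pos (Real.exp_pos _), one_mul]
  set K := ∫ u : ℝ, Real.exp (a * |u|) * Real.exp (-(u ^ 2 / 2)) with hKd
  have hK0 : 0 ≤ K := integral_nonneg fun u => by positivity
  have key : ∀ t, 0 ≤ t → |Gt A t| ≤ C * K * Real.exp (a * |t|) := by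
    intro t ht
    have hsh : Integrable fun s : ℝ => Real.exp (a * |s - t|) * Real.exp (-((s - t) ^ 2 / 2)) :=
      hK.comp_sub_right t
    unfold Gt
    rw [← integral_const_mul]
    have h1 : ∀ s ∈ Set.Ioi t, ‖Real.exp (t ^ 2 / 2) * (A s * Real.exp (-(s ^ 2 / 2)))‖ ≤
        C * Real.exp (a * |t|) * (Real.exp (a * |s - t|) * Real.exp (-((s - t) ^ 2 / 2))) := by
      intro s hs
      have hs' : t < s := hs
      rw [Real.norm_eq_abs, abs_mul, abs_mul, abs_of_pos (Real.exp_pos _),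
        abs_of_pos (Real.exp_pos _)]
      have e1 : Real.exp (t ^ 2 / 2) * Real.exp (-(s ^ 2 / 2)) ≤
          Real.exp (-((s - t) ^ 2 / 2)) := by
        rw [← Real.exp_add]
        apply Real.exp_le_exp.2
        nlinarith
      have e2 : |A s| ≤ C * (Real.exp (a * |t|) * Real.exp (a * |s - t|)) := by
        refine (hb s).trans ?_
        rw [← Real.exp_add]
        refine mul_le_mul_of_nonneg_left (Real.exp_le_exp.2 ?_) hC
        have : |s| ≤ |t| + |s - t| := by
          calc |s| = |t + (s - t)| := by ring_nf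
            _ ≤ |t| + |s - t| := abs_add_le _ _
        nlinarith
      calc Real.exp (t ^ 2 / 2) * (|A s| * Real.exp (-(s ^ 2 / 2)))
          = |A s| * (Real.exp (t ^ 2 / 2) * Real.exp (-(s ^ 2 / 2))) := by ring
        _ ≤ C * (Real.exp (a * |t|) * Real.exp (a * |s - t|)) * Real.exp (-((s - t) ^ 2 / 2)) :=
            mul_le_mul e2 e1 (by positivity) (by positivity)
        _ = _ := by ring
    have h2 : Integrable fun s : ℝ =>
        C * Real.exp (a * |t|) * (Real.exp (a * |s - t|) * Real.exp (-((s - t) ^ 2 / 2))) :=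
      hsh.const_mul _
    calc |∫ s in Set.Ioi t, Real.exp (t ^ 2 / 2) * (A s * Real.exp (-(s ^ 2 / 2)))|
        ≤ ∫ s in Set.Ioi t, ‖Real.exp (t ^ 2 / 2) * (A s * Real.exp (-(s ^ 2 / 2)))‖ := by
          rw [← Real.norm_eq_abs]
          exact norm_integral_le_integral_norm _
      _ ≤ ∫ s in Set.Ioi t,
          C * Real.exp (a * |t|) * (Real.exp (a * |s - t|) * Real.exp (-((s - t) ^ 2 / 2))) :=
          setIntegral_mono_on ((hi.const_mul _).norm.integrableOn) h2.integrableOn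
            measurableSet_Ioi h1
      _ ≤ ∫ s : ℝ,
          C * Real.exp (a * |t|) * (Real.exp (a * |s - t|) * Real.exp (-((s - t) ^ 2 / 2))) :=
          setIntegral_le_integral h2 (Filter.Eventually.of_forall fun s => by positivity)
      _ = C * Real.exp (a * |t|) * K := by
          rw [integral_const_mul]
          congr 1
          exact integral_sub_right_eq_self
            (fun u : ℝ => Real.exp (a * |u|) * Real.exp (-(u ^ 2 / 2))) t
      _ = C * K * Real.exp (a * |t|) := by ring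
  refine ⟨C * K, a, by positivity, ha, fun t => ?_⟩
  rcases le_total 0 t with h | h
  · exact key t h
  · have := key (-t) (by linarith)
    rwa [ge_odd hA, abs_neg, abs_neg] at this

lemma EE.oe (hA : EE A) : OE (Gt A) :=
  ⟨continuous_iff_continuousAt.2 fun t => (ge_deriv hA.cont hA.bdd t).continuousAt, ge_odd hA,
    ge_bdd hA⟩

lemma EE.ga (hA : EE A) : GA (Gt A) A :=
  ⟨ge_deriv hA.cont hA.bdd, cce_of hA.oe.cont hA.oe.bdd, cce_of hA.cont hA.bdd⟩

/-- **even functions of mean zero** -/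
theorem cr_even (hA : EE A) (hB : EE B) (h : c ^ 2 + s ^ 2 = 1) :
    |cr c s A B| ≤ c ^ 2 * (√(nm A) * √(nm B)) := by
  have hG := hA.ga
  have hH := hB.ga
  refine cr_step hG hH h (sq_nonneg c) ?_ ?_
  · rw [abs_mul]
    calc |c| * |cr c s (Gt A) (Gt B)| ≤ |c| * (|c| * (√(nm (Gt A)) * √(nm (Gt B)))) :=
          mul_le_mul_of_nonneg_left (cr_odd hA.oe hB.oe h) (abs_nonneg c)
      _ = |c| ^ 2 * (√(nm (Gt A)) * √(nm (Gt B))) := by ring
      _ = _ := by rw [sq_abs]
  · rw [abs_mul, abs_of_nonneg (sq_nonneg c)]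
    exact mul_le_mul_of_nonneg_left (cr_le hG.d hH.d h) (sq_nonneg c)

/-- **odd functions without linear part** -/
theorem cr_cube (hA : OE A) (hB : OE B) (ha : ∫ x, x * A x ∂(gaussianReal 0 1) = 0)
    (hb : ∫ x, x * B x ∂(gaussianReal 0 1) = 0) (h : c ^ 2 + s ^ 2 = 1) :
    |cr c s A B| ≤ |c| ^ 3 * (√(nm A) * √(nm B)) := by
  have hG := ga_of_oe hA
  have hH := ga_of_oe hB
  have eG : EE (Gt A) := ⟨Gt_cont hA, Gt_even hA, Gt_bdd hA, by rw [← mean_eq hG, ha]⟩
  have eH : EE (Gt B) := ⟨Gt_cont hB, Gt_even hB, Gt_bdd hB, by rw [← mean_eq hH, hb]⟩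
  have oG : OE (fun t => t * Gt A t - A t) := by
    refine ⟨by have := Gt_cont hA; have := hA.cont; fun_prop, fun t => ?_, hG.d.bdd⟩
    rw [Gt_even hA, hA.odd]
    ring
  have oH : OE (fun t => t * Gt B t - B t) := by
    refine ⟨by have := Gt_cont hB; have := hB.cont; fun_prop, fun t => ?_, hH.d.bdd⟩
    rw [Gt_even hB, hB.odd]
    ring
  refine cr_step hG hH h (by positivity) ?_ ?_
  · rw [abs_mul]
    calc |c| * |cr c s (Gt A) (Gt B)| ≤ |c| * (c ^ 2 * (√(nm (Gt A)) * √(nm (Gt B)))) :=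
          mul_le_mul_of_nonneg_left (cr_even eG eH h) (abs_nonneg c)
      _ = |c| * (|c| ^ 2 * (√(nm (Gt A)) * √(nm (Gt B)))) := by rw [sq_abs]
      _ = _ := by ring
  · rw [abs_mul, abs_pow]
    calc |c| ^ 2 * |cr c s (fun t => t * Gt A t - A t) (fun t => t * Gt B t - B t)|
        ≤ |c| ^ 2 * (|c| * (√(nm fun t => t * Gt A t - A t) * √(nm fun t => t * Gt B t - B t))) :=
          mul_le_mul_of_nonneg_left (cr_odd oG oH h) (by positivity)
      _ = _ := by ring

/-- **(F2a-M)** the Mehler inequality with the cube -/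
theorem mehler3 {A B : ℝ → ℝ} (hA : OE A) (hB : OE B)
    (ha : ∫ x, x * A x ∂(gaussianReal 0 1) = 0) (hb : ∫ x, x * B x ∂(gaussianReal 0 1) = 0)
    {c s : ℝ} (hcs : c ^ 2 + s ^ 2 = 1) :
    |∫ x, ∫ y, A x * B (c * x + s * y) ∂(gaussianReal 0 1) ∂(gaussianReal 0 1)| ≤
      |c| ^ 3 * (√(∫ x, A x ^ 2 ∂(gaussianReal 0 1)) * √(∫ x, B x ^ 2 ∂(gaussianReal 0 1))) := by
  have h := cr_cube hA hB ha hb hcs
  have e : cr c s A B =
      ∫ x, ∫ y, A x * B (c * x + s * y) ∂(gaussianReal 0 1) ∂(gaussianReal 0 1) := by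
    have h1 := int_two (fun p : ℝ × ℝ => A p.1 * B (c * p.1 + s * p.2))
    have h2 : cr c s A B = ∫ p : ℝ × ℝ, A p.1 * B (c * p.1 + s * p.2)
        ∂((gaussianReal 0 1).prod (gaussianReal 0 1)) := h1
    rw [h2]
    have hi : Integrable (fun z : Fin 2 → ℝ => A (z 0) * B (ys c s z)) (gI (Fin 2)) :=
      ((eg_x2 (cce_of hA.cont hA.bdd)).mul (eg_y2 (cce_of hB.cont hB.bdd) c s)).integrable
    have hj : Integrable (fun p : ℝ × ℝ => A p.1 * B (c * p.1 + s * p.2))
        ((gaussianReal 0 1).prod (gaussianReal 0 1)) := by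
      have hm := measurePreserving_finTwoArrow (gaussianReal 0 1)
      exact (hm.integrable_comp_emb MeasurableEquiv.finTwoArrow.measurableEmbedding).1 hi
    exact integral_prod _ hj
  rw [← e]
  exact h

end Vale.Agent.P146.H391
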