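import Vale.Agent.P146.H391.Sn2
import Vale.Agent.P146.H478.PlG
import Vale.Agent.P146.H94.Pla

/-!
The exponential inequality of the planted gauge for the SK systems, and the exponent step with the
factor `m_{l+1}`, without hypotheses.
-/

open MeasureTheory ProbabilityTheory

namespace Vale.Agent.P146.H391

open Vale.Agent.P157 Vale.Agent.P157.Lv Vale.Agent.P157.Lv.Sy Vale.Agent.P146.H425
open Vale.Agent.P146.H784 (vr)
open Vale.Agent.P146.Ub (RI lc st dsk fd ph)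
open Vale.Agent.P146.Ub.Ld (SN AN rlv rlv_le)

set_option linter.unusedSectionVars false
set_option linter.unusedVariables false

variable {n K N : ℕ} {m m' s : ℕ → ℝ} {β : ℝ}

/-- **The exponential inequality for the SK systems.** -/
theorem SN_Pl (hK : 1 ≤ K) (hm : WE K m) (hs0 : s 0 = 0) (hN : N ≤ n) (hN0 : 0 < N) {l : ℕ}
    (hl1 : 1 ≤ l) (hl : l < K) (hm' : WE K m') (heq : ∀ j, j ≠ l + 1 → m' j = m j) :
    Pl (SN n K 1 m β N s) m' l := by
  intro J hJ1 hJ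
  exact H478.pl_gain (SN_lin hK hm) (H94.SN_pla hK hm hs0)
    (SN_lin (n := n) (β := β) (N := N) (s := s) hK hm').reg heq hJ1 hJ hl
    (kf_nonneg (SN_lin hK hm) (SN_FL hN hl1 hl) hN0 hl)
    (kf_le_const (SN_lin hK hm) (SN_FL hN hl1 hl) hN0 hl (ph_sq_le hN))

/-- **(X) with the increment of the slope and the factor `m_{l+1}`.** -/
theorem SN_rho_dD2 (hK : 1 ≤ K) (hm : WE K m) (hs0 : s 0 = 0) (hN : N ≤ n) (hN0 : 0 < N) {l : ℕ}
    (hl1 : 1 ≤ l) (hl : l < K) (hm' : WE K m') (heq : ∀ j, j ≠ l + 1 → m' j = m j)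
    (hlt : m (l + 1) < m' (l + 1)) (hs : s (l + 1) ≠ 0)
    (hb : m (l + 1) * (m' (l + 1) - m (l + 1)) * (N * s (l + 1) ^ 2) ≤ 1) :
    vr (SN n K 1 m β N s) (fun z _ => H784.rho (SN n K 1 m β N s) (ph hN) l z) ≤
    160 / (m (l + 1) * (m' (l + 1) - m (l + 1)) * (N * s (l + 1) ^ 2) ^ 2) *
        (DN n K m' β N s l - DN n K m β N s l) +
      2 * ((SN n K 1 m β N s).Rl (ph hN) (l + 1) - (SN n K 1 m β N s).Rl (ph hN) l) :=
  SN_rho_dD2_of hK hm hs0 hN hN0 hl1 hl hm' heq hlt hs hb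
    (SN_Pl hK hm hs0 hN hN0 hl1 hl hm' heq)

end Vale.Agent.P146.H391
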